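import Mathlib

namespace Vale.Agent.Lib.P339

open Finset

/-- A projection game: each constraint `e` names a left vertex, a right vertex and a map
from the left alphabet to the right alphabet; `mu` is a probability distribution on constraints. -/
structure ProjectionGame (U V SigmaL SigmaR E : Type) [Fintype E] where
  leftVertex : E → U
  rightVertex : E → V
  proj : E → SigmaL → SigmaR
  mu : E → ℚ
  mu_nonneg : ∀ e, 0 ≤ mu e
  mu_sum : ∑ e, mu e = 1

section Game

variable {U V SigmaL SigmaR E : Type} [Fintype E]

/-- The probability that a random constraint is satisfied by the labeling `(A, B)`. -/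
def ProjectionGame.satisfiedMass [DecidableEq SigmaR] (G : ProjectionGame U V SigmaL SigmaR E)
    (A : U → SigmaL) (B : V → SigmaR) : ℚ :=
  ∑ e, if G.proj e (A (G.leftVertex e)) = B (G.rightVertex e) then G.mu e else 0

/-- The value of the game: the maximum over all labelings of the satisfied probability. -/
def ProjectionGame.value [Fintype U] [Fintype V] [Fintype SigmaL] [Fintype SigmaR]
    [DecidableEq U] [DecidableEq V] [DecidableEq SigmaR] [Nonempty SigmaL] [Nonempty SigmaR]
    (G : ProjectionGame U V SigmaL SigmaR E) : ℚ :=
  (univ : Finset ((U → SigmaL) × (V → SigmaR))).sup' univ_nonempty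
    (fun L => G.satisfiedMass L.1 L.2)

/-- A 2-to-1 game with parameter `q`: alphabets `Fin (2 * q)` and `Fin q`, and every right label
has exactly two preimages under every constraint map. -/
def IsTwoToOne {q : ℕ} (G : ProjectionGame U V (Fin (2 * q)) (Fin q) E) : Prop :=
  ∀ (e : E) (b : Fin q), (univ.filter (fun a => G.proj e a = b)).card = 2

end Game

section NTW

variable {X ι : Type}

/-- The truth value of a literal; the flag `true` marks a negated variable. -/
def litEval (σ : X → Bool) (l : X × Bool) : Bool := xor (σ l.1) l.2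

/-- A Not-Two clause (three literals) is satisfied when the number of true literals is not 2. -/
def ntwSat (σ : X → Bool) (c : Fin 3 → X × Bool) : Prop :=
  (univ.filter (fun i => litEval σ (c i) = true)).card ≠ 2

instance (σ : X → Bool) (c : Fin 3 → X × Bool) : Decidable (ntwSat σ c) := by
  unfold ntwSat; infer_instance

/-- The fraction of clauses satisfied by `σ`. -/
def ntwFraction [Fintype ι] (Φ : ι → Fin 3 → X × Bool) (σ : X → Bool) : ℚ :=
  ((univ.filter (fun i => ntwSat σ (Φ i))).card : ℚ) / (Fintype.card ι : ℚ)

/-- The value of a Max-NTW instance: the maximum fraction of simultaneously satisfied clauses. -/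
def ntwValue [Fintype X] [DecidableEq X] [Fintype ι] (Φ : ι → Fin 3 → X × Bool) : ℚ :=
  (univ : Finset (X → Bool)).sup' univ_nonempty (ntwFraction Φ)

end NTW

/-- Relabelling of `Fin 6` used for negated literals: it exchanges the label classes
`{0,1,2}` (read as false) and `{3,4,5}` (read as true). -/
def twist (n : Bool) (a : Fin 6) : Fin 6 := if n then a + 3 else a

/-- The first gadget vertex, with 12 labels, talks to the first literal. -/
def t1x : Fin 12 → Fin 6 := ![0, 1, 1, 2, 3, 0, 2, 4, 3, 4, 5, 5]
/-- The first gadget vertex talks to the second literal. -/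
def t1y : Fin 12 → Fin 6 := ![0, 1, 1, 2, 0, 3, 4, 2, 3, 4, 5, 5]
/-- The first gadget vertex talks to the auxiliary right vertex. -/
def t1r : Fin 12 → Fin 6 := ![0, 0, 1, 1, 2, 2, 3, 3, 4, 4, 5, 5]
/-- The second gadget vertex talks to the auxiliary right vertex. -/
def t2r : Fin 12 → Fin 6 := ![0, 0, 1, 1, 2, 2, 3, 3, 4, 4, 5, 5]
/-- The second gadget vertex talks to the third literal. -/
def t2z : Fin 12 → Fin 6 := ![0, 3, 2, 5, 0, 1, 1, 2, 3, 4, 4, 5]

variable {X ι : Type} [Fintype ι]

/-- The reduction from Max-NTW to 2-to-1 games with `q = 6`. Each clause `i` gets two left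
vertices `(i, 0)`, `(i, 1)`, one auxiliary right vertex `Sum.inr i` and five constraints; the
variables of the instance are the remaining right vertices `Sum.inl x`. The constraint
distribution is uniform. Every constraint depends only on one clause. -/
def reduction [Nonempty ι] (Φ : ι → Fin 3 → X × Bool) :
    ProjectionGame (ι × Fin 2) (X ⊕ ι) (Fin (2 * 6)) (Fin 6) (ι × Fin 5) where
  leftVertex e := if e.2.val < 3 then (e.1, 0) else (e.1, 1)
  rightVertex e :=
    ![Sum.inl (Φ e.1 0).1, Sum.inl (Φ e.1 1).1, Sum.inr e.1, Sum.inr e.1, Sum.inl (Φ e.1 2).1] e.2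
  proj e :=
    ![fun a => twist (Φ e.1 0).2 (t1x a), fun a => twist (Φ e.1 1).2 (t1y a), t1r, t2r,
      fun a => twist (Φ e.1 2).2 (t2z a)] e.2
  mu _ := 1 / (5 * (Fintype.card ι : ℚ))
  mu_nonneg _ := by positivity
  mu_sum := by
    have h : (Fintype.card ι : ℚ) ≠ 0 := by
      exact_mod_cast Fintype.card_ne_zero
    simp only [Finset.sum_const, Finset.card_univ, Fintype.card_prod, Fintype.card_fin,
      nsmul_eq_mul]
    push_cast
    field_simp

end Vale.Agent.Lib.P339
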