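import Vale.Agent.Lib.P339.Defs

namespace Vale.Agent.Lib.P339

open Finset

/-- Boolean form of the Not-Two predicate. -/
def ntw3 (a b c : Bool) : Bool :=
  !((a && b && !c) || (a && !b && c) || (!a && b && c))

/-- Reading a label as a truth value. -/
def dec (a : Fin 6) : Bool := decide (3 ≤ a.val)

/-- The canonical label of a truth value. -/
def base (b : Bool) : Fin 6 := if b then 3 else 0

lemma ntwSat_iff_aux : ∀ f : Fin 3 → Bool,
    (univ.filter (fun i => f i = true)).card ≠ 2 ↔ ntw3 (f 0) (f 1) (f 2) = true := by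
  decide

lemma ntwSat_iff {X : Type} (σ : X → Bool) (c : Fin 3 → X × Bool) :
    ntwSat σ c ↔ ntw3 (litEval σ (c 0)) (litEval σ (c 1)) (litEval σ (c 2)) = true :=
  ntwSat_iff_aux (fun i => litEval σ (c i))

lemma dec_twist : ∀ (n : Bool) (a : Fin 6), dec (twist n a) = xor (dec a) n := by
  decide

lemma twist_twist : ∀ (n : Bool) (a : Fin 6), twist n (twist n a) = a := by
  decide

lemma twist_base : ∀ (n p : Bool), twist n (base p) = base (xor p n) := by
  decide

lemma core : ∀ a0 a1 : Fin 12, t1r a0 = t2r a1 →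
    ntw3 (dec (t1x a0)) (dec (t1y a0)) (dec (t2z a1)) = true := by
  decide

/-- Completeness table: the labels used for a literal pattern. -/
def pick (p0 p1 p2 : Bool) : Fin 12 × Fin 6 × Fin 12 :=
  match p0, p1, p2 with
  | false, false, false => (0, 0, 0)
  | true,  false, false => (4, 2, 4)
  | false, true,  false => (5, 2, 4)
  | false, false, true  => (0, 0, 1)
  | true,  true,  true  => (8, 4, 8)
  | true,  true,  false => (8, 4, 0)
  | true,  false, true  => (4, 2, 1)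
  | false, true,  true  => (5, 2, 1)

/-- The number of satisfied constraints in one gadget, as a sum of five indicators. -/
def cnt (a0 a1 : Fin 12) (r l0 l1 l2 : Fin 6) (n0 n1 n2 : Bool) : ℕ :=
  (if twist n0 (t1x a0) = l0 then 1 else 0) +
  (if twist n1 (t1y a0) = l1 then 1 else 0) +
  (if t1r a0 = r then 1 else 0) +
  (if t2r a1 = r then 1 else 0) +
  (if twist n2 (t2z a1) = l2 then 1 else 0)

lemma cnt_le (a0 a1 : Fin 12) (r l0 l1 l2 : Fin 6) (n0 n1 n2 : Bool) :
    cnt a0 a1 r l0 l1 l2 n0 n1 n2 ≤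
      4 + if ntw3 (xor (dec l0) n0) (xor (dec l1) n1) (xor (dec l2) n2) = true then 1 else 0 := by
  unfold cnt
  by_cases h0 : twist n0 (t1x a0) = l0 <;> by_cases h1 : twist n1 (t1y a0) = l1 <;>
  by_cases h2 : t1r a0 = r <;> by_cases h3 : t2r a1 = r <;>
  by_cases h4 : twist n2 (t2z a1) = l2 <;> simp only [h0, h1, h2, h3, h4, if_true, if_false] <;>
  try omega
  have hc := core a0 a1 (h2.trans h3.symm)
  have e0 : xor (dec l0) n0 = dec (t1x a0) := by
    rw [← h0, dec_twist]; cases dec (t1x a0) <;> cases n0 <;> rfl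
  have e1 : xor (dec l1) n1 = dec (t1y a0) := by
    rw [← h1, dec_twist]; cases dec (t1y a0) <;> cases n1 <;> rfl
  have e2 : xor (dec l2) n2 = dec (t2z a1) := by
    rw [← h4, dec_twist]; cases dec (t2z a1) <;> cases n2 <;> rfl
  rw [e0, e1, e2, hc]
  simp

lemma pick_count : ∀ p0 p1 p2 : Bool,
    4 + (if ntw3 p0 p1 p2 = true then 1 else 0) ≤
      (if t1x (pick p0 p1 p2).1 = base p0 then 1 else 0) +
      (if t1y (pick p0 p1 p2).1 = base p1 then 1 else 0) +
      (if t1r (pick p0 p1 p2).1 = (pick p0 p1 p2).2.1 then 1 else 0) +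
      (if t2r (pick p0 p1 p2).2.2 = (pick p0 p1 p2).2.1 then 1 else 0) +
      (if t2z (pick p0 p1 p2).2.2 = base p2 then 1 else 0) := by
  decide

lemma twist_eq_base_iff (n : Bool) (a : Fin 6) (v : Bool) :
    twist n a = base v ↔ a = base (xor v n) := by
  constructor
  · intro h
    rw [← twist_twist n a, h, twist_base]
  · intro h
    rw [h, twist_base]
    cases v <;> cases n <;> rfl

variable {X ι : Type} [Fintype ι] [Nonempty ι]

lemma satisfiedMass_eq (Φ : ι → Fin 3 → X × Bool)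
    (A : ι × Fin 2 → Fin (2 * 6)) (B : X ⊕ ι → Fin 6) :
    (reduction Φ).satisfiedMass A B =
      (1 / (5 * (Fintype.card ι : ℚ))) *
        ∑ i, (cnt (A (i, 0)) (A (i, 1)) (B (Sum.inr i))
          (B (Sum.inl (Φ i 0).1)) (B (Sum.inl (Φ i 1).1)) (B (Sum.inl (Φ i 2).1))
          (Φ i 0).2 (Φ i 1).2 (Φ i 2).2 : ℚ) := by
  unfold ProjectionGame.satisfiedMass
  rw [Fintype.sum_prod_type, Finset.mul_sum]
  refine Finset.sum_congr rfl (fun i _ => ?_)
  rw [Fin.sum_univ_five]
  have e0 : (reduction Φ).proj (i, 0) (A ((reduction Φ).leftVertex (i, 0))) =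
      twist (Φ i 0).2 (t1x (A (i, 0))) := rfl
  have e1 : (reduction Φ).proj (i, 1) (A ((reduction Φ).leftVertex (i, 1))) =
      twist (Φ i 1).2 (t1y (A (i, 0))) := rfl
  have e2 : (reduction Φ).proj (i, 2) (A ((reduction Φ).leftVertex (i, 2))) =
      t1r (A (i, 0)) := rfl
  have e3 : (reduction Φ).proj (i, 3) (A ((reduction Φ).leftVertex (i, 3))) =
      t2r (A (i, 1)) := rfl
  have e4 : (reduction Φ).proj (i, 4) (A ((reduction Φ).leftVertex (i, 4))) =
      twist (Φ i 2).2 (t2z (A (i, 1))) := rfl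
  have r0 : (reduction Φ).rightVertex (i, 0) = Sum.inl (Φ i 0).1 := rfl
  have r1 : (reduction Φ).rightVertex (i, 1) = Sum.inl (Φ i 1).1 := rfl
  have r2 : (reduction Φ).rightVertex (i, 2) = Sum.inr i := rfl
  have r3 : (reduction Φ).rightVertex (i, 3) = Sum.inr i := rfl
  have r4 : (reduction Φ).rightVertex (i, 4) = Sum.inl (Φ i 2).1 := rfl
  rw [e0, e1, e2, e3, e4, r0, r1, r2, r3, r4]
  have hm : ∀ k, (reduction Φ).mu k = 1 / (5 * (Fintype.card ι : ℚ)) := fun _ => rfl
  simp only [hm]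
  unfold cnt
  push_cast
  split_ifs <;> ring

lemma ntwFraction_eq (Φ : ι → Fin 3 → X × Bool) (σ : X → Bool) :
    ∑ i, (4 + (if ntwSat σ (Φ i) then 1 else 0) : ℚ) =
      (Fintype.card ι : ℚ) * (4 + ntwFraction Φ σ) := by
  have h : (Fintype.card ι : ℚ) ≠ 0 := by
    exact_mod_cast Fintype.card_ne_zero
  unfold ntwFraction
  rw [Finset.sum_add_distrib, Finset.sum_const, Finset.card_univ, nsmul_eq_mul]
  have : ∑ i, (if ntwSat σ (Φ i) then (1 : ℚ) else 0) =
      ((univ.filter (fun i => ntwSat σ (Φ i))).card : ℚ) := by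
    rw [Finset.card_filter]
    push_cast
    rfl
  rw [this]
  field_simp

lemma mass_le (Φ : ι → Fin 3 → X × Bool)
    (A : ι × Fin 2 → Fin (2 * 6)) (B : X ⊕ ι → Fin 6) :
    (reduction Φ).satisfiedMass A B ≤
      4 / 5 + (1 / 5) * ntwFraction Φ (fun x => dec (B (Sum.inl x))) := by
  have hcard : (0 : ℚ) < Fintype.card ι := by
    exact_mod_cast Fintype.card_pos
  rw [satisfiedMass_eq]
  set σ : X → Bool := fun x => dec (B (Sum.inl x)) with hσ
  have key : ∀ i, (cnt (A (i, 0)) (A (i, 1)) (B (Sum.inr i))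
      (B (Sum.inl (Φ i 0).1)) (B (Sum.inl (Φ i 1).1)) (B (Sum.inl (Φ i 2).1))
      (Φ i 0).2 (Φ i 1).2 (Φ i 2).2 : ℚ) ≤ 4 + (if ntwSat σ (Φ i) then 1 else 0) := by
    intro i
    have := cnt_le (A (i, 0)) (A (i, 1)) (B (Sum.inr i))
      (B (Sum.inl (Φ i 0).1)) (B (Sum.inl (Φ i 1).1)) (B (Sum.inl (Φ i 2).1))
      (Φ i 0).2 (Φ i 1).2 (Φ i 2).2
    have h2 : ntwSat σ (Φ i) ↔ ntw3 (xor (dec (B (Sum.inl (Φ i 0).1))) (Φ i 0).2)
        (xor (dec (B (Sum.inl (Φ i 1).1))) (Φ i 1).2)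
        (xor (dec (B (Sum.inl (Φ i 2).1))) (Φ i 2).2) = true := ntwSat_iff σ (Φ i)
    by_cases h3 : ntwSat σ (Φ i)
    · rw [if_pos h3]
      rw [if_pos (h2.mp h3)] at this
      exact_mod_cast this
    · rw [if_neg h3]
      rw [if_neg (fun h => h3 (h2.mpr h))] at this
      exact_mod_cast this
  have hsum := Finset.sum_le_sum (fun i (_ : i ∈ (univ : Finset ι)) => key i)
  rw [ntwFraction_eq] at hsum
  have hpos : (0 : ℚ) ≤ 1 / (5 * (Fintype.card ι : ℚ)) := by positivity
  calc _ ≤ (1 / (5 * (Fintype.card ι : ℚ))) *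
        ((Fintype.card ι : ℚ) * (4 + ntwFraction Φ σ)) :=
        mul_le_mul_of_nonneg_left hsum hpos
    _ = _ := by field_simp

/-- The left labeling attached to a truth assignment. -/
def leftOf (Φ : ι → Fin 3 → X × Bool) (σ : X → Bool) : ι × Fin 2 → Fin (2 * 6) := fun u =>
  let p := pick (litEval σ (Φ u.1 0)) (litEval σ (Φ u.1 1)) (litEval σ (Φ u.1 2))
  if u.2 = 0 then p.1 else p.2.2

/-- The right labeling attached to a truth assignment. -/
def rightOf (Φ : ι → Fin 3 → X × Bool) (σ : X → Bool) : X ⊕ ι → Fin 6 := fun v =>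
  match v with
  | Sum.inl x => base (σ x)
  | Sum.inr i => (pick (litEval σ (Φ i 0)) (litEval σ (Φ i 1)) (litEval σ (Φ i 2))).2.1

lemma mass_ge (Φ : ι → Fin 3 → X × Bool) (σ : X → Bool) :
    4 / 5 + (1 / 5) * ntwFraction Φ σ ≤
      (reduction Φ).satisfiedMass (leftOf Φ σ) (rightOf Φ σ) := by
  have hcard : (0 : ℚ) < Fintype.card ι := by
    exact_mod_cast Fintype.card_pos
  rw [satisfiedMass_eq]
  have key : ∀ i, (4 + (if ntwSat σ (Φ i) then 1 else 0) : ℚ) ≤
      (cnt (leftOf Φ σ (i, 0)) (leftOf Φ σ (i, 1)) (rightOf Φ σ (Sum.inr i))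
      (rightOf Φ σ (Sum.inl (Φ i 0).1)) (rightOf Φ σ (Sum.inl (Φ i 1).1))
      (rightOf Φ σ (Sum.inl (Φ i 2).1))
      (Φ i 0).2 (Φ i 1).2 (Φ i 2).2 : ℚ) := by
    intro i
    have := pick_count (litEval σ (Φ i 0)) (litEval σ (Φ i 1)) (litEval σ (Φ i 2))
    have h2 := ntwSat_iff σ (Φ i)
    have hc : (4 + (if ntw3 (litEval σ (Φ i 0)) (litEval σ (Φ i 1)) (litEval σ (Φ i 2)) = true
        then 1 else 0) : ℕ) ≤ cnt (leftOf Φ σ (i, 0)) (leftOf Φ σ (i, 1)) (rightOf Φ σ (Sum.inr i))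
      (rightOf Φ σ (Sum.inl (Φ i 0).1)) (rightOf Φ σ (Sum.inl (Φ i 1).1))
      (rightOf Φ σ (Sum.inl (Φ i 2).1))
      (Φ i 0).2 (Φ i 1).2 (Φ i 2).2 := by
      refine this.trans (le_of_eq ?_)
      unfold cnt
      simp only [rightOf, leftOf, twist_eq_base_iff]
      simp only [litEval]
      rfl
    by_cases h3 : ntwSat σ (Φ i)
    · rw [if_pos h3]
      rw [if_pos (h2.mp h3)] at hc
      exact_mod_cast hc
    · rw [if_neg h3]
      rw [if_neg (fun h => h3 (h2.mpr h))] at hc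
      exact_mod_cast hc
  have hsum := Finset.sum_le_sum (fun i (_ : i ∈ (univ : Finset ι)) => key i)
  rw [ntwFraction_eq] at hsum
  have hpos : (0 : ℚ) ≤ 1 / (5 * (Fintype.card ι : ℚ)) := by positivity
  calc _ = (1 / (5 * (Fintype.card ι : ℚ))) *
        ((Fintype.card ι : ℚ) * (4 + ntwFraction Φ σ)) := by field_simp
    _ ≤ _ := mul_le_mul_of_nonneg_left hsum hpos

lemma value_eq [Fintype X] [DecidableEq X] [DecidableEq ι] (Φ : ι → Fin 3 → X × Bool) :
    (reduction Φ).value = 4 / 5 + (1 / 5) * ntwValue Φ := by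
  apply le_antisymm
  · unfold ProjectionGame.value
    apply Finset.sup'_le
    intro L _
    refine (mass_le Φ L.1 L.2).trans ?_
    have : ntwFraction Φ (fun x => dec (L.2 (Sum.inl x))) ≤ ntwValue Φ :=
      Finset.le_sup' (ntwFraction Φ) (Finset.mem_univ _)
    linarith
  · obtain ⟨σ, _, hσ⟩ := Finset.exists_mem_eq_sup' (s := (univ : Finset (X → Bool)))
      univ_nonempty (ntwFraction Φ)
    have hv : ntwValue Φ = ntwFraction Φ σ := hσ
    rw [hv]
    refine (mass_ge Φ σ).trans ?_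
    unfold ProjectionGame.value
    exact Finset.le_sup' (f := fun L : (ι × Fin 2 → Fin (2 * 6)) × (X ⊕ ι → Fin 6) =>
      (reduction Φ).satisfiedMass L.1 L.2) (Finset.mem_univ (leftOf Φ σ, rightOf Φ σ))

lemma fiber_t1x : ∀ (n : Bool) (b : Fin 6),
    (univ.filter (fun a : Fin 12 => twist n (t1x a) = b)).card = 2 := by decide
lemma fiber_t1y : ∀ (n : Bool) (b : Fin 6),
    (univ.filter (fun a : Fin 12 => twist n (t1y a) = b)).card = 2 := by decide
lemma fiber_t1r : ∀ (b : Fin 6),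
    (univ.filter (fun a : Fin 12 => t1r a = b)).card = 2 := by decide
lemma fiber_t2r : ∀ (b : Fin 6),
    (univ.filter (fun a : Fin 12 => t2r a = b)).card = 2 := by decide
lemma fiber_t2z : ∀ (n : Bool) (b : Fin 6),
    (univ.filter (fun a : Fin 12 => twist n (t2z a) = b)).card = 2 := by decide

lemma isTwoToOne (Φ : ι → Fin 3 → X × Bool) : IsTwoToOne (reduction Φ) := by
  rintro ⟨i, k⟩ b
  fin_cases k
  · exact fiber_t1x _ b
  · exact fiber_t1y _ b
  · exact fiber_t1r b
  · exact fiber_t2r b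
  · exact fiber_t2z _ b

lemma ntwFraction_le_one (Φ : ι → Fin 3 → X × Bool) (σ : X → Bool) :
    ntwFraction Φ σ ≤ 1 := by
  have hcard : (0 : ℚ) < Fintype.card ι := by
    exact_mod_cast Fintype.card_pos
  unfold ntwFraction
  rw [div_le_one hcard]
  exact_mod_cast Finset.card_filter_le _ _

lemma ntwFraction_eq_one_iff (Φ : ι → Fin 3 → X × Bool) (σ : X → Bool) :
    ntwFraction Φ σ = 1 ↔ ∀ i, ntwSat σ (Φ i) := by
  have hcard : (Fintype.card ι : ℚ) ≠ 0 := by
    exact_mod_cast Fintype.card_ne_zero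
  unfold ntwFraction
  rw [div_eq_one_iff_eq hcard]
  constructor
  · intro h i
    have h' : (univ.filter (fun i => ntwSat σ (Φ i))).card = Fintype.card ι := by exact_mod_cast h
    have := (Finset.card_eq_iff_eq_univ _).mp h'
    have hi : i ∈ univ.filter (fun i => ntwSat σ (Φ i)) := by rw [this]; exact Finset.mem_univ i
    exact (Finset.mem_filter.mp hi).2
  · intro h
    have : univ.filter (fun i => ntwSat σ (Φ i)) = univ := by
      ext i; simp [h i]
    rw [this]; simp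

lemma satisfiable_iff [Fintype X] [DecidableEq X] [DecidableEq ι] (Φ : ι → Fin 3 → X × Bool) :
    (∃ σ : X → Bool, ∀ i, ntwSat σ (Φ i)) ↔ (reduction Φ).value = 1 := by
  rw [value_eq]
  constructor
  · rintro ⟨σ, hσ⟩
    have h1 : ntwValue Φ = 1 := by
      apply le_antisymm
      · exact Finset.sup'_le _ _ (fun τ _ => ntwFraction_le_one Φ τ)
      · have := Finset.le_sup' (ntwFraction Φ) (Finset.mem_univ σ)
        rw [(ntwFraction_eq_one_iff Φ σ).mpr hσ] at this
        exact this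
    rw [h1]; norm_num
  · intro h
    obtain ⟨σ, _, hσ⟩ := Finset.exists_mem_eq_sup' (s := (univ : Finset (X → Bool)))
      univ_nonempty (ntwFraction Φ)
    have hv : ntwValue Φ = ntwFraction Φ σ := hσ
    refine ⟨σ, (ntwFraction_eq_one_iff Φ σ).mp ?_⟩
    rw [hv] at h
    linarith

end Vale.Agent.Lib.P339
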